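import Vale.Agent.P192.H479.RL3

/-!
# P192: rectangle exchanges: piecewise constancy of the average potential (helper694)
-/

namespace Vale.Agent.P192.H694

open Vale.Agent.P192.H479

variable {P : Type}

/-- `F` commutes with the translations of the last coordinate. -/
def Eqv (F : Equiv.Perm ((P × ℝ) × ℝ)) : Prop :=
  ∀ z r, F (z, r) = ((F (z, 0)).1, (F (z, 0)).2 + r)

/-- `F` fixes the points over the complement of `[0, mu)` and is piecewise constant in the middle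
coordinate. -/
def Pc (mu : ℝ) (F : Equiv.Perm ((P × ℝ) × ℝ)) : Prop :=
  (∀ x y, y ∉ Set.Ico 0 mu → F ((x, y), 0) = ((x, y), 0)) ∧
  ∃ (B T : Set ℝ), B.Finite ∧ T.Finite ∧ ∀ x y y', y ∈ Set.Ico 0 mu → y' ∈ Set.Ico 0 mu →
    (∀ b ∈ B, b ≤ y ↔ b ≤ y') →
    (F ((x, y'), 0)).1.1 = (F ((x, y), 0)).1.1 ∧ (F ((x, y'), 0)).2 = (F ((x, y), 0)).2 ∧
    (F ((x, y'), 0)).1.2 - y' = (F ((x, y), 0)).1.2 - y ∧ (F ((x, y), 0)).1.2 - y ∈ T

variable {mu : ℝ} {F F' : Equiv.Perm ((P × ℝ) × ℝ)}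

theorem Pc.mem (hE : Eqv F) (h : Pc mu F) {x : P} {y : ℝ} (hy : y ∈ Set.Ico 0 mu) :
    (F ((x, y), 0)).1.2 ∈ Set.Ico 0 mu := by
  by_contra hcon
  obtain ⟨⟨⟨x1, y1⟩, s⟩, hz⟩ : ∃ z, F ((x, y), 0) = z := ⟨_, rfl⟩
  rw [hz] at hcon
  have h1 : F ((x1, y1), s) = ((x1, y1), s) := by
    rw [hE, h.1 x1 y1 hcon, zero_add]
  have h2 := F.injective (h1.trans hz.symm)
  have h3 : y1 = y := congrArg (fun z : (P × ℝ) × ℝ => z.1.2) h2
  exact hcon (by rw [h3]; exact hy)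

theorem pc_one : Pc mu (1 : Equiv.Perm ((P × ℝ) × ℝ)) := by
  refine ⟨fun x y _ => rfl, ∅, {0}, Set.finite_empty, Set.finite_singleton 0, ?_⟩
  intro x y y' _ _ _
  refine ⟨rfl, rfl, ?_, ?_⟩
  · simp
  · simp

theorem Pc.mul (hE : Eqv F) (hE' : Eqv F') (h : Pc mu F) (h' : Pc mu F') : Pc mu (F * F') := by
  have hmul : ∀ z, (F * F') (z, 0) = ((F ((F' (z, 0)).1, 0)).1,
      (F ((F' (z, 0)).1, 0)).2 + (F' (z, 0)).2) := by
    intro z
    rw [Equiv.Perm.mul_apply]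
    have := hE (F' (z, 0)).1 (F' (z, 0)).2
    rwa [Prod.mk.eta] at this
  refine ⟨fun x y hy => ?_, ?_⟩
  · rw [hmul, h'.1 x y hy, h.1 x y hy]
    simp
  · obtain ⟨B, T, hB, hT, hF⟩ := h.2
    obtain ⟨B', T', hB', hT', hF'⟩ := h'.2
    refine ⟨B' ∪ Set.image2 (fun b t => b - t) B T', Set.image2 (fun s t => s + t) T T',
      hB'.union (hB.image2 _ hT'), hT.image2 _ hT', ?_⟩
    intro x y y' hy hy' hyy
    obtain ⟨e1, e2, e3, e4⟩ := hF' x y y' hy hy' (fun b hb => hyy b (Or.inl hb))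
    have m1 := h'.mem hE' (x := x) hy
    have m2 := h'.mem hE' (x := x) hy'
    obtain ⟨f1, f2, f3, f4⟩ := hF (F' ((x, y), 0)).1.1 (F' ((x, y), 0)).1.2
      (F' ((x, y'), 0)).1.2 m1 m2 (fun b hb => by
        have := hyy (b - ((F' ((x, y), 0)).1.2 - y)) (Or.inr ⟨b, hb, _, e4, rfl⟩)
        constructor
        · intro hb1
          have := this.1 (by linarith)
          linarith
        · intro hb1
          have := this.2 (by linarith)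
          linarith)
    have g1 : (F' ((x, y'), 0)).1 = ((F' ((x, y), 0)).1.1, (F' ((x, y'), 0)).1.2) :=
      Prod.ext e1 rfl
    have g2 : (F' ((x, y), 0)).1 = ((F' ((x, y), 0)).1.1, (F' ((x, y), 0)).1.2) := rfl
    rw [hmul, hmul, g1, g2]
    refine ⟨f1, ?_, ?_, ?_⟩
    · change _ + _ = _ + _
      rw [f2, e2]
    · linarith
    · refine ⟨_, f4, _, e4, ?_⟩
      change _ + _ = _ - _
      ring

theorem Eqv.inv (hE : Eqv F) : Eqv F⁻¹ := by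
  intro z r
  obtain ⟨⟨z0, s⟩, hz⟩ := F.surjective (z, 0)
  have h1 : F⁻¹ (z, 0) = (z0, s) := by rw [← hz]; exact F.symm_apply_apply _
  have h2 : F (z0, s + r) = (z, r) := by
    rw [hE] at hz ⊢
    have h3 := congrArg Prod.fst hz
    have h4 := congrArg Prod.snd hz
    refine Prod.ext h3 ?_
    change _ + s = (0 : ℝ) at h4
    change _ + (s + r) = r
    linarith
  have h3 : F⁻¹ (z, r) = (z0, s + r) := by rw [← h2]; exact F.symm_apply_apply _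
  rw [h1, h3]

theorem Pc.inv (hE : Eqv F) (h : Pc mu F) : Pc mu F⁻¹ := by
  refine ⟨fun x y hy => ?_, ?_⟩
  · have h1 := h.1 x y hy
    calc F⁻¹ ((x, y), 0) = F⁻¹ (F ((x, y), 0)) := by rw [h1]
      _ = _ := F.symm_apply_apply _
  · obtain ⟨B, T, hB, hT, hF⟩ := h.2
    refine ⟨Set.image2 (fun b t => b + t) (B ∪ {0, mu}) T, (fun t => -t) '' T,
      (hB.union (by simp)).image2 _ hT, hT.image _, ?_⟩
    intro x y y' hy hy' hyy
    obtain ⟨⟨⟨x0, y0⟩, s⟩, hz⟩ := F.surjective ((x, y), 0)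
    have i1 : F⁻¹ ((x, y), 0) = ((x0, y0), s) := by rw [← hz]; exact F.symm_apply_apply _
    have hz' := hz
    rw [hE] at hz'
    have a1 : (F ((x0, y0), 0)).1.1 = x := congrArg (fun z : (P × ℝ) × ℝ => z.1.1) hz'
    have a2 : (F ((x0, y0), 0)).1.2 = y := congrArg (fun z : (P × ℝ) × ℝ => z.1.2) hz'
    have a3 : (F ((x0, y0), 0)).2 + s = 0 := congrArg (fun z : (P × ℝ) × ℝ => z.2) hz'
    have hy0 : y0 ∈ Set.Ico 0 mu := by
      by_contra hcon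
      rw [h.1 x0 y0 hcon] at a2
      exact hcon (by rw [show y0 = y from a2]; exact hy)
    have hT0 : y - y0 ∈ T := by
      have := (hF x0 y0 y0 hy0 hy0 (fun b _ => Iff.rfl)).2.2.2
      rwa [a2] at this
    have hb : ∀ b ∈ B ∪ {0, mu}, b ≤ y0 ↔ b ≤ y' - (y - y0) := by
      intro b hb
      have h1 := hyy (b + (y - y0)) ⟨b, hb, _, hT0, rfl⟩
      constructor
      · intro h2
        have := h1.1 (by linarith)
        linarith
      · intro h2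
        have := h1.2 (by linarith)
        linarith
    have hy0' : y' - (y - y0) ∈ Set.Ico 0 mu := by
      refine ⟨(hb 0 (by simp)).1 hy0.1, ?_⟩
      by_contra hcon
      exact absurd ((hb mu (by simp)).2 (not_lt.1 hcon)) (not_le.2 hy0.2)
    obtain ⟨f1, f2, f3, -⟩ := hF x0 y0 (y' - (y - y0)) hy0 hy0' (fun b hb' => hb b (Or.inl hb'))
    have h5 : F ((x0, y' - (y - y0)), s) = ((x, y'), 0) := by
      rw [hE]
      refine Prod.ext (Prod.ext (f1.trans a1) ?_) ?_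
      · change _ = y'
        rw [a2] at f3
        change (F ((x0, y' - (y - y0)), 0)).1.2 = y'
        linarith
      · change _ + s = (0 : ℝ)
        rw [f2, a3]
    have i2 : F⁻¹ ((x, y'), 0) = ((x0, y' - (y - y0)), s) := by
      rw [← h5]; exact F.symm_apply_apply _
    rw [i1, i2]
    refine ⟨rfl, rfl, ?_, ⟨_, hT0, ?_⟩⟩
    · change y' - (y - y0) - y' = y0 - y
      ring
    · change -(y - y0) = y0 - y
      ring

variable {G : Type} [Group G]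

/-- All elements of the group are piecewise constant. -/
theorem pc_all {M : Set G} (hgen : Subgroup.closure M = ⊤)
    (Ψ : G →* Equiv.Perm ((P × ℝ) × ℝ)) (hΨ : ∀ g, Eqv (Ψ g)) (h : ∀ a ∈ M, Pc mu (Ψ a)) (g : G) :
    Pc mu (Ψ g) := by
  refine gen_induct hgen (P := fun g => Pc mu (Ψ g)) h ?_ ?_ ?_ g
  · rw [map_one]
    exact pc_one
  · intro a b ha hb
    rw [map_mul]
    exact ha.mul (hΨ a) (hΨ b) hb
  · intro a ha
    rw [map_inv]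
    exact ha.inv (hΨ a)

/-- The average potential is piecewise constant. -/
theorem avg_pc (Ψ : G →* Equiv.Perm ((P × ℝ) × ℝ)) [Fintype Ψ.range]
    (h : ∀ g, Pc mu (Ψ g)) :
    ∃ B3 : Set ℝ, B3.Finite ∧ ∀ x y y', y ∈ Set.Ico 0 mu → y' ∈ Set.Ico 0 mu →
      (∀ b ∈ B3, b ≤ y ↔ b ≤ y') → avg Ψ (x, y) = avg Ψ (x, y') := by
  have h1 : ∀ q : Ψ.range, ∃ B : Set ℝ, B.Finite ∧ ∀ x y y', y ∈ Set.Ico 0 mu →
      y' ∈ Set.Ico 0 mu → (∀ b ∈ B, b ≤ y ↔ b ≤ y') →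
      ((q : Equiv.Perm ((P × ℝ) × ℝ)) ((x, y), 0)).2 =
        ((q : Equiv.Perm ((P × ℝ) × ℝ)) ((x, y'), 0)).2 := by
    rintro ⟨_, g, rfl⟩
    obtain ⟨B, T, hB, -, hF⟩ := (h g).2
    exact ⟨B, hB, fun x y y' hy hy' hb => (hF x y y' hy hy' hb).2.1.symm⟩
  choose B hB hBq using h1
  refine ⟨⋃ q, B q, Set.finite_iUnion hB, ?_⟩
  intro x y y' hy hy' hb
  unfold avg
  rw [Finset.sum_congr rfl fun q _ => hBq q x y y' hy hy' fun b hb' =>
    hb b (Set.mem_iUnion.2 ⟨q, hb'⟩)]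

/-- The average potential is zero outside of `[0, mu)`. -/
theorem avg_out (Ψ : G →* Equiv.Perm ((P × ℝ) × ℝ)) [Fintype Ψ.range]
    (h : ∀ g, Pc mu (Ψ g)) (x : P) {y : ℝ} (hy : y ∉ Set.Ico 0 mu) : avg Ψ (x, y) = 0 := by
  have h1 : ∀ q : Ψ.range, ((q : Equiv.Perm ((P × ℝ) × ℝ)) ((x, y), 0)).2 = 0 := by
    rintro ⟨_, g, rfl⟩
    change (Ψ g ((x, y), 0)).2 = 0
    rw [(h g).1 x y hy]
  unfold avg
  rw [Finset.sum_congr rfl fun q _ => h1 q]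
  simp

section rd

variable (D : RD G ℝ) (hgen : Subgroup.closure D.M = ⊤)
  (Ψ : G →* Equiv.Perm ((D.Pt × ℝ) × ℝ)) (h1 : ∀ a ∈ D.M, ∀ z, Ψ a z = D.φ1 a z)
  (hΨ : ∀ g x r, Ψ g (x, r) = ((Ψ g (x, 0)).1, (Ψ g (x, 0)).2 + r))
  (hout : ∀ a ∈ D.M, ∀ k, 0 ≤ k → k < D.ν D.L → ∀ y, y ∉ Set.Ico 0 mu →
    D.act a k y = k ∧ D.tr a k y = 0 ∧ D.act2 a k y = y)
  (hin : ∀ a ∈ D.M, ∃ (B2 T2 : Set ℝ), B2.Finite ∧ T2.Finite ∧ ∀ k, 0 ≤ k → k < D.ν D.L →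
    ∀ y y', 0 ≤ y → y < mu → 0 ≤ y' → y' < mu → (∀ b ∈ B2, b ≤ y ↔ b ≤ y') →
      D.act a k y' = D.act a k y ∧ D.tr a k y' = D.tr a k y ∧
      D.act2 a k y' - y' = D.act2 a k y - y ∧ D.act2 a k y - y ∈ T2)

include h1 hout hin in
theorem pc_M {a : G} (ha : a ∈ D.M) : Pc mu (Ψ a) := by
  refine ⟨fun x y hy => ?_, ?_⟩
  · obtain ⟨e1, e2, e3⟩ := hout a ha x.1 x.2.1 x.2.2 y hy
    rw [h1 a ha]
    have e := D.φ0_M ha (x, y)
    refine Prod.ext (Prod.ext (Subtype.ext (e.1.trans e1)) (e.2.trans e3)) ?_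
    change D.tr a x.1 y + 0 = 0
    rw [e2, add_zero]
  · obtain ⟨B2, T2, hB2, hT2, hB⟩ := hin a ha
    refine ⟨B2, T2, hB2, hT2, fun x y y' hy hy' hb => ?_⟩
    obtain ⟨e1, e2, e3, e4⟩ := hB x.1 x.2.1 x.2.2 y y' hy.1 hy.2 hy'.1 hy'.2 hb
    have e := D.φ0_M ha (x, y)
    have e' := D.φ0_M ha (x, y')
    rw [h1 a ha, h1 a ha]
    refine ⟨Subtype.ext (e'.1.trans (e1.trans e.1.symm)), ?_, ?_, ?_⟩
    · change D.tr a x.1 y' + 0 = D.tr a x.1 y + 0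
      rw [e2]
    · change (D.φ0 a (x, y')).2 - y' = (D.φ0 a (x, y)).2 - y
      rw [e.2, e'.2]
      exact e3
    · change (D.φ0 a (x, y)).2 - y ∈ T2
      rw [e.2]
      exact e4

include h1 hout hin hgen hΨ in
/-- **[PIE]** the average potential is piecewise constant in the second coordinate. -/
theorem pie [Fintype Ψ.range] :
    ∃ B3 : Set ℝ, B3.Finite ∧ ∀ k, 0 ≤ k → k < D.ν D.L → ∀ y y', 0 ≤ y → y < mu →
      0 ≤ y' → y' < mu → (∀ b ∈ B3, b ≤ y ↔ b ≤ y') → D.pos Ψ k y = D.pos Ψ k y' := by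
  have hE : ∀ g, Eqv (Ψ g) := fun g z r => hΨ g z r
  obtain ⟨B3, hB3, h⟩ := avg_pc Ψ
    (pc_all hgen Ψ hE fun a ha => pc_M D Ψ h1 hout hin ha)
  refine ⟨B3, hB3, fun k hk hkL y y' hy0 hy hy0' hy' hb => ?_⟩
  rw [D.pos_of Ψ ⟨hk, hkL⟩, D.pos_of Ψ ⟨hk, hkL⟩]
  exact h _ y y' ⟨hy0, hy⟩ ⟨hy0', hy'⟩ hb

include h1 hout hin hgen hΨ in
/-- The potential is zero outside of `[0, mu)`. -/
theorem pie_out [Fintype Ψ.range] (k : ℤ) {y : ℝ} (hy : y ∉ Set.Ico 0 mu) : D.pos Ψ k y = 0 := by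
  have hE : ∀ g, Eqv (Ψ g) := fun g z r => hΨ g z r
  by_cases hk : 0 ≤ k ∧ k < D.ν D.L
  · rw [D.pos_of Ψ hk]
    exact avg_out Ψ (pc_all hgen Ψ hE fun a ha => pc_M D Ψ h1 hout hin ha) _ hy
  · exact dif_neg hk

end rd

end Vale.Agent.P192.H694
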